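import Vale.Agent.Results.P331.OneSampleGirth
import Vale.Agent.Results.P331.A_circumference

namespace Vale.Agent.Results.P331.AAA_union

open Finset MeasureTheory Vale.Agent.Lib.P331
open scoped ENNReal NNReal

/-- The two single-sample results against the almighty adversary in one statement. -/
theorem result :
    (∀ {n : ℕ} (M : Matroid (Fin n)) (r g : ℕ)
      (_ : ∀ I : Finset (Fin n), M.Indep (I : Set (Fin n)) → I.card ≤ r)
      (_ : ∀ I : Finset (Fin n), I.card < g → M.Indep (I : Set (Fin n)))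
      (D : Fin n → Measure ℝ≥0) [∀ e, IsProbabilityMeasure (D e)]
      (π : (Fin n → ℝ≥0 × ℝ≥0) → ℕ → List (Fin n))
      (_ : ∀ ω j, (π ω j).Nodup ∧ ∀ e, e ∈ π ω j),
      (r ≤ g → numSeeds r g ≤ 5) ∧
      (32 * (numSeeds r g : ℝ≥0∞))⁻¹ *
          ∫⁻ ω, opt M (valueOf ω) ∂(Measure.pi fun e => (D e).prod (D e)) ≤
        (numSeeds r g : ℝ≥0∞)⁻¹ * ∑ j ∈ range (numSeeds r g),
          ∫⁻ ω, ∑ e ∈ run M (fun e => eligible M g j (sampleOf ω) e (valueOf ω e)) (π ω j),
            valueOf ω e ∂(Measure.pi fun e => (D e).prod (D e))) ∧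
    (∀ {E : Type} [Fintype E] [LinearOrder E] (M : Matroid E) (_ : M.E = Set.univ)
      (k : ℕ) (_ : 1 ≤ k) (_ : ∀ C, M.IsCircuit C → C.encard ≤ (k : ℕ∞) + 1),
      ∃ r : OnlineRule E (Seed E k),
        (∀ S ω V order, M.Indep (accepted r S ω V order : Set E)) ∧
        (∀ ω order A, MeasurableSet
          {p : (E → ℝ≥0) × (E → ℝ≥0) | accepted r p.2 ω p.1 order = A}) ∧
        ∀ (D : E → Measure ℝ≥0) [∀ e, IsProbabilityMeasure (D e)]
          (adv : Seed E k → (E → ℝ≥0) → (E → ℝ≥0) → List E),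
          (∀ ω V S, (adv ω V S).Nodup ∧ ∀ e, e ∈ adv ω V S) →
          ∫⁻ v, OPT M v ∂(Measure.pi D) ≤
            (4 * k) * ((Fintype.card (Seed E k) : ℝ≥0∞)⁻¹ * ∑ ω : Seed E k,
              ∫⁻ p : (E → ℝ≥0) × (E → ℝ≥0),
                ∑ e ∈ accepted r p.2 ω p.1 (adv ω p.1 p.2), (p.1 e : ℝ≥0∞)
                ∂((Measure.pi D).prod (Measure.pi D)))) :=
  ⟨fun M r g hr hg D _ π hπ =>
      Vale.Agent.Results.P331.OneSampleGirth.result M r g hr hg D π hπ,
    fun M hE k hk hc => Vale.Agent.Results.P331.A_circumference.result M hE k hk hc⟩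

end Vale.Agent.Results.P331.AAA_union
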